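import Vale.Agent.P127.Mollify

/-!
P127, helper file: a Hoelder map `b` of `m` space with exponent above `(m - 1) / m` cannot have
null images `{b v + τ • v}` of a ball for infinitely many `τ`.
-/

open MeasureTheory Set Filter Topology Function Metric

namespace P127

noncomputable section

variable {m : ℕ}

theorem Dm_rows0_eq (F : Vec m → Vec m) (v : Vec m) :
    Dm m (rows0 F v) = (fderiv ℝ F v).det := by
  rw [Dm_eq, ContinuousLinearMap.det, ← LinearMap.det_toMatrix', ← Matrix.det_transpose]
  congr 1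

/-- A smooth map has vanishing Jacobian almost everywhere on the preimage of a null set. -/
theorem det_eq_zero_ae_preimage {F : Vec m → Vec m} (hF : ContDiff ℝ 2 F) {K : Set (Vec m)}
    (hK : IsClosed K) (hnull : volume K = 0) :
    volume {v | F v ∈ K ∧ (fderiv ℝ F v).det ≠ 0} = 0 := by
  have hd : Continuous fun v => (fderiv ℝ F v).det :=
    ContinuousLinearMap.continuous_det.comp (hF.continuous_fderiv (by norm_num))
  set S := {v | F v ∈ K ∧ (fderiv ℝ F v).det ≠ 0} with hS
  have hSm : MeasurableSet S := (hK.preimage hF.continuous).measurableSet.inter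
    (isOpen_ne_fun hd continuous_const).measurableSet
  refine measure_null_of_locally_null S fun x hx => ?_
  have hx2 : (fderiv ℝ F x).det ≠ 0 := hx.2
  set e := (fderiv ℝ F x).toContinuousLinearEquivOfDetNeZero hx2 with he
  have hs : HasStrictFDerivAt F (e : Vec m →L[ℝ] Vec m) x := by
    have := hF.contDiffAt.hasStrictFDerivAt (x := x) (by norm_num)
    exact this
  set φ := hs.toOpenPartialHomeomorph F with hφ
  have hxφ : x ∈ φ.source := hs.mem_toOpenPartialHomeomorph_source
  refine ⟨S ∩ φ.source, inter_mem self_mem_nhdsWithin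
    (mem_nhdsWithin_of_mem_nhds (φ.open_source.mem_nhds hxφ)), ?_⟩
  have hm' : MeasurableSet (S ∩ φ.source) := hSm.inter φ.open_source.measurableSet
  have hinj : InjOn F (S ∩ φ.source) := (φ.injOn).mono inter_subset_right
  have heq := lintegral_abs_det_fderiv_eq_addHaar_image volume hm'
    (fun v _ => ((hF.differentiable (by norm_num) v).hasFDerivAt).hasFDerivWithinAt) hinj
  have h0 : volume (F '' (S ∩ φ.source)) = 0 :=
    measure_mono_null (image_subset_iff.2 fun v hv => hv.1.1) hnull
  rw [h0, lintegral_eq_zero_iff (hd.measurable.abs.ennreal_ofReal)] at heq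
  have h1 : ∀ᵐ v ∂volume.restrict (S ∩ φ.source), False := by
    filter_upwards [heq, ae_restrict_mem hm'] with v hv hvS
    exact hvS.1.2 (by simpa using hv)
  rw [eventually_false_iff_eq_bot, ae_eq_bot, Measure.restrict_eq_zero] at h1
  exact h1

/-- The weighted determinant integral. -/
def Phi (χ h : Vec m → ℝ) (F : Vec m → Vec m) : ℝ := ∫ v, χ v * (Dm m (rows0 F v) * h (F v))

theorem core (hm : 0 < m) (b : Vec m → Vec m) (C α : ℝ) (hC : 0 ≤ C) (hα : 0 < α) (hα1 : α ≤ 1)
    (hαm : (m : ℝ) - 1 < m * α) (hb : ∀ x y, ‖b x - b y‖ ≤ C * ‖x - y‖ ^ α)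
    (x0 : Vec m) (r : ℝ) (hr : 0 < r) (T : Set ℝ) (hT : T.Infinite)
    (hnull : ∀ τ ∈ T, volume ((fun v => b v + τ • v) '' closedBall x0 r) = 0) : False := by
  have hbc : Continuous b := by
    refine continuous_iff_continuousAt.2 fun x => tendsto_iff_norm_sub_tendsto_zero.2 ?_
    refine squeeze_zero (fun _ => norm_nonneg _) (fun y => hb y x) ?_
    have : Continuous fun y => C * ‖y - x‖ ^ α :=
      continuous_const.mul ((continuous_id.sub continuous_const).norm.rpow_const
        fun _ => Or.inr hα.le)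
    simpa [Real.zero_rpow hα.ne'] using this.tendsto x
  obtain ⟨L, hL, hLb⟩ := exists_norm_fderiv_moll_le hbc hC hα.le hb
  set bb : ContDiffBump x0 := ⟨r / 2, r, by linarith, by linarith⟩ with hball
  set χ : Vec m → ℝ := fun v => bb v with hχdef
  have hχ : ContDiff ℝ 1 χ := bb.contDiff
  have hχc : HasCompactSupport χ := bb.hasCompactSupport
  have hχz : ∀ v, v ∉ closedBall x0 r → χ v = 0 := fun v hv => by
    apply image_eq_zero_of_notMem_tsupport
    rw [hχdef, bb.tsupport_eq]; simpa [hball] using hv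
  set β : ℝ := (m : ℝ) * α - ((m : ℝ) - 1) with hβdef
  have hβ : 0 < β := by rw [hβdef]; linarith
  set F : ℝ → ℝ → Vec m → Vec m := fun τ ε v => moll b ε v + τ • v with hFdef
  have hFs : ∀ τ ε, 0 < ε → ContDiff ℝ 2 (F τ ε) := fun τ ε hε =>
    (contDiff_moll hbc hε).add (contDiff_id.const_smul τ)
  have hFd : ∀ τ ε, 0 < ε → ∀ v k, fderiv ℝ (F τ ε) v (bv k)
      = fderiv ℝ (moll b ε) v (bv k) + τ • bv k := by
    intro τ ε hε v k
    have h1 := ((contDiff_moll hbc hε).differentiable (by norm_num) v).hasFDerivAt.fun_add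
      ((hasFDerivAt_id (𝕜 := ℝ) v).fun_const_smul τ)
    have h2 : fderiv ℝ (F τ ε) v = _ := h1.fderiv
    rw [h2]; simp
  -- the key estimate
  have key : ∀ τ ∈ T, ∃ M : ℝ, ∀ ε : ℝ, 0 < ε → ε ≤ 1 →
      |∫ v, χ v * Dm m (rows0 (F τ ε) v)| ≤ M * ε ^ β := by
    intro τ hτ
    set A0 : ℝ := L + |τ| + L * (1 / 2 : ℝ) ^ (α - 1) with hA0
    set M1 : ℝ := (∑ j, ∫ v, |fderiv ℝ χ v (bv j)|)
      * ((m.factorial : ℝ) * ((2 * C) * (2 * A0) ^ (m - 1))) with hM1
    set q : ℝ := (1 / 2 : ℝ) ^ β with hq
    have hq1 : q < 1 := Real.rpow_lt_one (by norm_num) (by norm_num) hβ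
    have hq0 : 0 ≤ q := by positivity
    have hM10 : 0 ≤ M1 := by
      refine mul_nonneg (Finset.sum_nonneg fun j _ => integral_nonneg fun v => abs_nonneg _) ?_
      positivity
    refine ⟨M1 / (1 - q), fun ε0 hε0 hε01 => ?_⟩
    have step : ∀ h : Vec m → ℝ, ContDiff ℝ 1 h → (∀ x, |h x| ≤ 1) → ∀ ε : ℝ, 0 < ε → ε ≤ 1 →
        |Phi χ h (F τ (ε / 2)) - Phi χ h (F τ ε)| ≤ M1 * ε ^ β := by
      intro h hh hh1 ε hε hε1
      set G : Vec m → Vec m := fun v => moll b (ε / 2) v - moll b ε v with hG
      have hGs : ContDiff ℝ 2 G := (contDiff_moll hbc (half_pos hε)).sub (contDiff_moll hbc hε)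
      have hGd : ∀ v k, fderiv ℝ G v (bv k)
          = fderiv ℝ (moll b (ε / 2)) v (bv k) - fderiv ℝ (moll b ε) v (bv k) := by
        intro v k
        have h1 := ((contDiff_moll hbc (half_pos hε)).differentiable (by norm_num) v
          ).hasFDerivAt.fun_sub
          ((contDiff_moll hbc hε).differentiable (by norm_num) v).hasFDerivAt
        have h2 : fderiv ℝ G v = _ := h1.fderiv
        rw [h2]; simp
      have hp : 1 ≤ ε ^ (α - 1) :=
        Real.one_le_rpow_of_pos_of_le_one_of_nonpos hε hε1 (by linarith)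
      have hop : ∀ δ : ℝ, 0 < δ → ∀ v k, ‖fderiv ℝ (moll b δ) v (bv k)‖ ≤ L * δ ^ (α - 1) :=
        fun δ hδ v k => ((fderiv ℝ (moll b δ) v).le_opNorm_of_le (norm_bv_le k)).trans
          (by rw [mul_one]; exact hLb δ hδ v)
      have hhalf : (ε / 2) ^ (α - 1) = ε ^ (α - 1) * (1 / 2 : ℝ) ^ (α - 1) := by
        rw [← Real.mul_rpow hε.le (by norm_num)]; ring_nf
      have hhalf0 : 0 ≤ (1 / 2 : ℝ) ^ (α - 1) := by positivity
      have b1 := step_bound (χ := χ) (h := h) (hFs τ ε hε) hGs hh hχ hχc hh1
        (A := A0 * ε ^ (α - 1)) (B := 2 * C * ε ^ α) ?_ ?_ ?_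
      · have e1 : (∫ v, dens (F τ ε) G χ h 1 v) = Phi χ h (F τ (ε / 2)) := by
          refine integral_congr_ae (Eventually.of_forall fun v => ?_)
          have r1 : rows (F τ ε) G 1 v = rows0 (F τ (ε / 2)) v := by
            funext k
            simp only [rows, rows0, one_smul, hFd τ ε hε, hFd τ (ε / 2) (half_pos hε), hGd]
            abel
          have r2 : F τ ε v + (1 : ℝ) • G v = F τ (ε / 2) v := by
            simp only [hFdef, hG, one_smul]; abel
          simp only [dens, r1, r2]
        have e0 : (∫ v, dens (F τ ε) G χ h 0 v) = Phi χ h (F τ ε) := by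
          refine integral_congr_ae (Eventually.of_forall fun v => ?_)
          have r1 : rows (F τ ε) G 0 v = rows0 (F τ ε) v := by
            funext k; simp [rows, rows0]
          simp only [dens, r1, zero_smul, add_zero]
        rw [e1, e0] at b1
        refine b1.trans_eq ?_
        rw [hM1]
        have e2 : ε ^ β = ε ^ α * (ε ^ (α - 1)) ^ (m - 1) := by
          rw [← Real.rpow_natCast (ε ^ (α - 1)), ← Real.rpow_mul hε.le, ← Real.rpow_add hε]
          congr 1
          rw [hβdef, Nat.cast_sub hm]; push_cast; ring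
        rw [e2, ← mul_assoc 2 A0, mul_pow]
        ring
      · intro v k
        rw [hFd τ ε hε]
        refine (norm_add_le _ _).trans ?_
        have h1 : ‖τ • bv k‖ ≤ |τ| := by
          rw [norm_smul, Real.norm_eq_abs]
          exact mul_le_of_le_one_right (abs_nonneg _) (norm_bv_le k)
        have h2 : |τ| ≤ |τ| * ε ^ (α - 1) := le_mul_of_one_le_right (abs_nonneg _) hp
        have h3 : 0 ≤ L * (1 / 2 : ℝ) ^ (α - 1) * ε ^ (α - 1) := by positivity
        rw [hA0]
        nlinarith [hop ε hε v k]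
      · intro v k
        rw [hGd]
        refine (norm_sub_le _ _).trans ?_
        have h3 : 0 ≤ |τ| * ε ^ (α - 1) := by positivity
        have h4 := hop (ε / 2) (half_pos hε) v k
        rw [hhalf] at h4
        rw [hA0]
        nlinarith [hop ε hε v k]
      · intro v
        have h1 := norm_moll_sub_le hbc hC hα.le hb hε v
        have h2 := norm_moll_sub_le hbc hC hα.le hb (half_pos hε) v
        have h3 : (ε / 2) ^ α ≤ ε ^ α := Real.rpow_le_rpow (by linarith) (by linarith) hα.le
        have h4 := norm_sub_le_norm_sub_add_norm_sub (moll b (ε / 2) v) (b v) (moll b ε v)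
        have h5 : ‖b v - moll b ε v‖ = ‖moll b ε v - b v‖ := norm_sub_rev _ _
        change ‖moll b (ε / 2) v - moll b ε v‖ ≤ _
        nlinarith
    -- the compact null set
    set K0 := (fun v => b v + τ • v) '' closedBall x0 r with hK0
    have hFc : Continuous fun v => b v + τ • v := hbc.add (continuous_id.const_smul τ)
    have hK0c : IsCompact K0 := (isCompact_closedBall x0 r).image hFc
    have bound : ∀ h : Vec m → ℝ, ContDiff ℝ 1 h → (∀ x, |h x| ≤ 1) →
        (∃ U : Set (Vec m), IsOpen U ∧ K0 ⊆ U ∧ ∀ x ∈ U, h x = 0) →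
        |Phi χ h (F τ ε0)| ≤ M1 * ε0 ^ β / (1 - q) := by
      rintro h hh hh1 ⟨U, hU, hKU, hhU⟩
      set a : ℕ → ℝ := fun k => Phi χ h (F τ (ε0 * (1 / 2) ^ k)) with ha
      have hsum : ∀ k, |a k - a 0| ≤ M1 * ε0 ^ β * ∑ i ∈ Finset.range k, q ^ i := by
        intro k
        induction k with
        | zero => simp
        | succ k ih =>
          have hpos : 0 < ε0 * (1 / 2 : ℝ) ^ k := by positivity
          have hle : ε0 * (1 / 2 : ℝ) ^ k ≤ 1 :=
            mul_le_one₀ hε01 (by positivity) (pow_le_one₀ (by norm_num) (by norm_num))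
          have hs := step h hh hh1 _ hpos hle
          have e1 : ε0 * (1 / 2 : ℝ) ^ (k + 1) = ε0 * (1 / 2 : ℝ) ^ k / 2 := by ring
          have e2 : (ε0 * (1 / 2 : ℝ) ^ k) ^ β = ε0 ^ β * q ^ k := by
            rw [Real.mul_rpow hε0.le (by positivity), hq, Real.rpow_pow_comm (by norm_num)]
          rw [e2, ← e1] at hs
          have := abs_sub_le (a (k + 1)) (a k) (a 0)
          rw [Finset.sum_range_succ, mul_add, ← mul_assoc] at *
          simp only [ha] at *
          nlinarith
      obtain ⟨δ, hδ, hδU⟩ := hK0c.exists_thickening_subset_open hU hKU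
      have hlim : Tendsto (fun k : ℕ => C * (ε0 * (1 / 2 : ℝ) ^ k) ^ α) atTop (𝓝 0) := by
        have h1 : Tendsto (fun k : ℕ => ε0 * (1 / 2 : ℝ) ^ k) atTop (𝓝 0) := by
          simpa using (tendsto_pow_atTop_nhds_zero_of_lt_one (by norm_num)
            (by norm_num : (1 / 2 : ℝ) < 1)).const_mul ε0
        simpa [Real.zero_rpow hα.ne'] using (h1.rpow_const (Or.inr hα.le)).const_mul C
      obtain ⟨k, hk⟩ := (hlim.eventually (gt_mem_nhds hδ)).exists
      have hak : a k = 0 := by
        simp only [ha, Phi]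
        refine integral_eq_zero_of_ae (Eventually.of_forall fun v => ?_)
        by_cases hv : v ∈ closedBall x0 r
        · have h1 : F τ (ε0 * (1 / 2 : ℝ) ^ k) v ∈ U := by
            refine hδU (mem_thickening_iff.2 ⟨b v + τ • v, mem_image_of_mem _ hv, ?_⟩)
            rw [dist_eq_norm]
            simp only [hFdef, add_sub_add_right_eq_sub]
            exact (norm_moll_sub_le hbc hC hα.le hb (by positivity) v).trans_lt hk
          simp only [hhU _ h1, mul_zero, Pi.zero_apply]
        · simp [hχz v hv]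
      have := hsum k
      rw [hak, zero_sub, abs_neg] at this
      have h0 : a 0 = Phi χ h (F τ ε0) := by simp [ha]
      rw [h0] at this
      refine this.trans ?_
      rw [le_div_iff₀ (by linarith), mul_assoc]
      refine mul_le_of_le_one_right (by positivity) ?_
      rw [geom_sum_mul_neg]
      linarith [pow_nonneg hq0 k]
    -- choose cut-off functions
    obtain ⟨f, hf1, hf2, hf3⟩ :=
      hK0c.isClosed.isOpen_compl.exists_contDiff_support_eq (n := (1 : ℕ∞))
    set hseq : ℕ → Vec m → ℝ := fun k x => Real.smoothTransition ((k : ℝ) * f x - 1) with hhseq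
    have hhs : ∀ k, ContDiff ℝ 1 (hseq k) := fun k =>
      Real.smoothTransition.contDiff.comp ((contDiff_const.mul hf2).sub contDiff_const)
    have hh1 : ∀ k x, |hseq k x| ≤ 1 := fun k x => by
      rw [abs_of_nonneg (Real.smoothTransition.nonneg _)]; exact Real.smoothTransition.le_one _
    have hb0 : ∀ k, |Phi χ (hseq k) (F τ ε0)| ≤ M1 * ε0 ^ β / (1 - q) := fun k => by
      refine bound _ (hhs k) (hh1 k) ⟨{x | (k : ℝ) * f x < 1},
        isOpen_lt (continuous_const.mul hf2.continuous) continuous_const, fun x hx => ?_,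
        fun x hx => Real.smoothTransition.zero_of_nonpos (by linarith [hx.out])⟩
      have : f x = 0 := by
        by_contra hne
        have : x ∈ f.support := hne
        rw [hf1] at this
        exact this hx
      simp [this]
    have hR : Continuous fun v => Dm m (rows0 (F τ ε0) v) :=
      (Dm m).cont.comp (continuous_pi fun k =>
        (contDiff_fderiv_bv (hFs τ ε0 hε0) k).continuous)
    have hconv : Tendsto (fun k => Phi χ (hseq k) (F τ ε0)) atTop
        (𝓝 (∫ v, χ v * Dm m (rows0 (F τ ε0) v))) := by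
      refine tendsto_integral_of_dominated_convergence
        (fun v => |χ v * Dm m (rows0 (F τ ε0) v)|) ?_ ?_ ?_ ?_
      · intro k
        exact (hχ.continuous.mul (hR.mul ((hhs k).continuous.comp
          (hFs τ ε0 hε0).continuous))).aestronglyMeasurable
      · exact ((hχ.continuous.mul hR).integrable_of_hasCompactSupport hχc.mul_right).abs
      · intro k
        refine Eventually.of_forall fun v => ?_
        rw [Real.norm_eq_abs, ← mul_assoc, abs_mul]
        exact mul_le_of_le_one_right (abs_nonneg _) (hh1 k _)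
      · have hae := det_eq_zero_ae_preimage (hFs τ ε0 hε0) hK0c.isClosed (hnull τ hτ)
        filter_upwards [measure_eq_zero_iff_ae_notMem.1 hae] with v hv
        by_cases hd : Dm m (rows0 (F τ ε0) v) = 0
        · simp [hd]
        · rw [Dm_rows0_eq] at hd
          have hmem : F τ ε0 v ∉ K0 := fun hm' => hv ⟨hm', hd⟩
          have hpos : 0 < f (F τ ε0 v) := by
            have h1 : F τ ε0 v ∈ f.support := by rw [hf1]; exact hmem
            exact lt_of_le_of_ne (hf3 (mem_range_self _)).1 (Ne.symm h1)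
          refine tendsto_const_nhds.congr' ?_
          obtain ⟨N, hN⟩ := exists_nat_ge (2 / f (F τ ε0 v))
          filter_upwards [eventually_ge_atTop N] with k hk
          have : 1 ≤ (k : ℝ) * f (F τ ε0 v) - 1 := by
            have h1 : 2 / f (F τ ε0 v) ≤ k := hN.trans (Nat.cast_le.2 hk)
            rw [div_le_iff₀ hpos] at h1
            linarith
          simp [hhseq, Real.smoothTransition.one_of_one_le this]
    refine le_trans (le_of_tendsto' hconv.abs hb0) (le_of_eq ?_)
    ring
  -- finitely many parameters recover the leading coefficient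
  obtain ⟨s, hsT, hscard⟩ := hT.exists_subset_card_eq (m + 1)
  choose! M hM using key
  set c : ℝ → ℝ := fun τ => (∏ σ ∈ s.erase τ, (τ - σ))⁻¹ with hc
  have hlead : ∀ ε : ℝ, 0 < ε → ∀ v, ∑ τ ∈ s, c τ * Dm m (rows0 (F τ ε) v) = 1 := by
    intro ε hε v
    set P := (-(Matrix.of (rows0 (moll b ε) v))).charpoly with hP
    have hdeg : P.degree = (m : ℕ) := by
      rw [hP, Matrix.charpoly_degree_eq_dim, Fintype.card_fin]
    have hev : ∀ τ, Dm m (rows0 (F τ ε) v) = P.eval τ := by
      intro τ
      rw [hP, Matrix.eval_charpoly, Dm_eq]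
      congr 1
      ext k i
      simp only [rows0, hFd τ ε hε, Matrix.of_apply, Matrix.sub_apply, Matrix.neg_apply,
        sub_neg_eq_add, Matrix.scalar_apply, Matrix.diagonal_apply]
      by_cases hki : k = i
      · subst hki; simp [bv, add_comm]
      · simp [hki, bv]
    have h1 := Lagrange.leadingCoeff_eq_sum (F := ℝ) (s := s) (v := id) (injective_id.injOn)
      (P := P) (by rw [hdeg, hscard]; norm_cast)
    rw [(Matrix.charpoly_monic _ : P.Monic).leadingCoeff] at h1
    rw [h1]
    refine Finset.sum_congr rfl fun τ _ => ?_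
    rw [hev, hc, div_eq_inv_mul]
    rfl
  have hle : ∀ ε : ℝ, 0 < ε → ε ≤ 1 → ∫ v, χ v ≤ (∑ τ ∈ s, |c τ| * M τ) * ε ^ β := by
    intro ε hε hε1
    have hint : ∀ τ, Integrable fun v => c τ * (χ v * Dm m (rows0 (F τ ε) v)) := fun τ =>
      ((hχ.continuous.mul ((Dm m).cont.comp (continuous_pi fun k =>
        (contDiff_fderiv_bv (hFs τ ε hε) k).continuous))).integrable_of_hasCompactSupport
          hχc.mul_right).const_mul _
    have e : ∫ v, χ v = ∑ τ ∈ s, c τ * ∫ v, χ v * Dm m (rows0 (F τ ε) v) := by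
      simp only [← integral_const_mul]
      rw [← integral_finsetSum _ fun τ _ => hint τ]
      refine integral_congr_ae (Eventually.of_forall fun v => ?_)
      have : ∀ τ, c τ * (χ v * Dm m (rows0 (F τ ε) v))
          = χ v * (c τ * Dm m (rows0 (F τ ε) v)) := fun τ => by ring
      simp only [this, ← Finset.mul_sum, hlead ε hε v, mul_one]
    rw [e, Finset.sum_mul]
    refine Finset.sum_le_sum fun τ hτ => ?_
    rw [mul_assoc]
    refine le_trans (le_abs_self _) ?_
    rw [abs_mul]
    exact mul_le_mul_of_nonneg_left (hM τ (hsT hτ) ε hε hε1) (abs_nonneg _)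
  have hlim : Tendsto (fun k : ℕ => (∑ τ ∈ s, |c τ| * M τ) * ((1 / 2 : ℝ) ^ k) ^ β) atTop (𝓝 0) := by
    simpa [Real.zero_rpow hβ.ne'] using ((tendsto_pow_atTop_nhds_zero_of_lt_one (by norm_num)
      (by norm_num : (1 / 2 : ℝ) < 1)).rpow_const (Or.inr hβ.le)).const_mul
      (∑ τ ∈ s, |c τ| * M τ)
  have hpos : 0 < ∫ v, χ v := bb.integral_pos
  have : ∫ v, χ v ≤ 0 := ge_of_tendsto' hlim fun k =>
    hle _ (by positivity) (pow_le_one₀ (by norm_num) (by norm_num))
  linarith

end

end P127
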