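import Vale.Agent.P127.Piola

/-!
P127, helper file: mollification of a Hoelder map at scale `ε`, with the standard bounds.
-/

open MeasureTheory Set Filter Topology Function Metric

namespace P127

noncomputable section

variable {m : ℕ}

/-- A fixed bump of total integral one supported in the unit ball. -/
def bump (m : ℕ) : ContDiffBump (0 : Vec m) := ⟨1 / 2, 1, by norm_num, by norm_num⟩

/-- The normalized bump. -/
def psi (m : ℕ) : Vec m → ℝ := (bump m).normed volume

theorem psi_nonneg (y : Vec m) : 0 ≤ psi m y := (bump m).nonneg_normed y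

theorem integral_psi : ∫ y, psi m y = 1 := (bump m).integral_normed

theorem contDiff_psi : ContDiff ℝ 2 (psi m) := (bump m).contDiff_normed

theorem hasCompactSupport_psi : HasCompactSupport (psi m) := (bump m).hasCompactSupport_normed

theorem psi_eq_zero (y : Vec m) (h : 1 < ‖y‖) : psi m y = 0 := by
  apply image_eq_zero_of_notMem_tsupport
  rw [psi, (bump m).tsupport_normed_eq]
  simpa [bump] using h

/-- Mollification at scale `ε`. -/
def moll (b : Vec m → Vec m) (ε : ℝ) (v : Vec m) : Vec m := ∫ y, psi m y • b (v - ε • y)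

variable {b : Vec m → Vec m} {C α : ℝ}

theorem integrable_moll_integrand (hbc : Continuous b) (ε : ℝ) (v : Vec m) :
    Integrable fun y => psi m y • b (v - ε • y) :=
  (contDiff_psi.continuous.smul (hbc.comp (continuous_const.sub (continuous_id.const_smul ε)))
    ).integrable_of_hasCompactSupport hasCompactSupport_psi.smul_right

theorem norm_moll_sub_le (hbc : Continuous b) (hC : 0 ≤ C) (hα : 0 ≤ α)
    (hb : ∀ x y, ‖b x - b y‖ ≤ C * ‖x - y‖ ^ α) {ε : ℝ} (hε : 0 < ε) (v : Vec m) :
    ‖moll b ε v - b v‖ ≤ C * ε ^ α := by
  have hint2 : Integrable fun y => psi m y • b v :=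
    ((bump m).integrable_normed).smul_const _
  have e : moll b ε v - b v = ∫ y, psi m y • (b (v - ε • y) - b v) := by
    have h1 : b v = ∫ y, psi m y • b v := by rw [integral_smul_const, integral_psi, one_smul]
    unfold moll
    conv_lhs => rw [h1]
    rw [← integral_sub (integrable_moll_integrand hbc ε v) hint2]
    exact integral_congr_ae (Eventually.of_forall fun y => by simp only [smul_sub])
  rw [e]
  refine le_trans (norm_integral_le_of_norm_le ((bump m).integrable_normed.mul_const (C * ε ^ α))
    (Eventually.of_forall fun y => ?_)) ?_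
  · rw [norm_smul, Real.norm_of_nonneg (psi_nonneg y)]
    change psi m y * _ ≤ psi m y * _
    by_cases hy : ‖y‖ ≤ 1
    · refine mul_le_mul_of_nonneg_left ((hb _ _).trans (mul_le_mul_of_nonneg_left ?_ hC))
        (psi_nonneg y)
      refine Real.rpow_le_rpow (norm_nonneg _) ?_ hα
      rw [sub_sub_cancel_left, norm_neg, norm_smul, Real.norm_of_nonneg hε.le]
      exact mul_le_of_le_one_right hε.le hy
    · rw [psi_eq_zero y (lt_of_not_ge hy), zero_mul, zero_mul]
  · rw [integral_mul_const]
    change (∫ y, psi m y) * _ ≤ _
    rw [integral_psi, one_mul]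

theorem contDiff_moll (hbc : Continuous b) {ε : ℝ} (hε : 0 < ε) : ContDiff ℝ 2 (moll b ε) := by
  set g : Vec m → ℝ := fun u => psi m (ε⁻¹ • u) with hg
  have hgs : ContDiff ℝ 2 g := contDiff_psi.comp (contDiff_id.const_smul ε⁻¹)
  have hgc : HasCompactSupport g := hasCompactSupport_psi.comp_homeomorph
    (Homeomorph.smulOfNeZero ε⁻¹ (inv_ne_zero hε.ne'))
  have hconv := hgc.contDiff_convolution_left (ContinuousLinearMap.lsmul ℝ ℝ) hgs
    (hbc.locallyIntegrable (μ := volume))
  have e : moll b ε
      = fun v => ((ε ^ Module.finrank ℝ (Vec m))⁻¹) •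
          convolution g b (ContinuousLinearMap.lsmul ℝ ℝ) volume v := by
    funext v
    have := Measure.integral_comp_smul_of_nonneg volume
      (fun u : Vec m => psi m (ε⁻¹ • u) • b (v - u)) ε (hR := hε.le)
    rw [convolution_def]
    simp only [ContinuousLinearMap.lsmul_apply, hg]
    rw [← this]
    unfold moll
    exact integral_congr_ae (Eventually.of_forall fun y => by
      simp only [inv_smul_smul₀ hε.ne'])
  rw [e]
  exact hconv.const_smul _

theorem exists_norm_fderiv_moll_le (hbc : Continuous b) (hC : 0 ≤ C) (hα : 0 ≤ α)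
    (hb : ∀ x y, ‖b x - b y‖ ≤ C * ‖x - y‖ ^ α) :
    ∃ L : ℝ, 0 ≤ L ∧ ∀ ε : ℝ, 0 < ε → ∀ v, ‖fderiv ℝ (moll b ε) v‖ ≤ L * ε ^ (α - 1) := by
  obtain ⟨K, hK⟩ := ((contDiff_psi (m := m)).of_le (by norm_num : (1 : WithTop ℕ∞) ≤ 2)
    ).lipschitzWith_of_hasCompactSupport hasCompactSupport_psi one_ne_zero
  set I : ℝ := (volume (closedBall (0 : Vec m) 2)).toReal with hI
  refine ⟨K * I * C * 2 ^ α, by positivity, fun ε hε v => ?_⟩
  refine norm_fderiv_le_of_lip' ℝ (by positivity) ?_
  filter_upwards [closedBall_mem_nhds v hε] with w hw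
  rw [mem_closedBall, dist_eq_norm] at hw
  set d : Vec m := ε⁻¹ • (w - v) with hd
  have hd1 : ‖d‖ ≤ 1 := by
    rw [hd, norm_smul, Real.norm_of_nonneg (inv_nonneg.2 hε.le), inv_mul_le_iff₀ hε, mul_one]
    exact hw
  have hint : ∀ z, Integrable fun y => psi m (y + z) • b (v - ε • y) := fun z =>
    ((contDiff_psi.continuous.comp (continuous_id.add continuous_const)).smul
      (hbc.comp (continuous_const.sub (continuous_id.const_smul ε)))
      ).integrable_of_hasCompactSupport
        ((hasCompactSupport_psi.comp_homeomorph (Homeomorph.addRight z)).smul_right)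
  have hint' : ∀ z, Integrable fun y => psi m (y + z) := fun z =>
    (bump m).integrable_normed.comp_add_right z
  have e1 : moll b ε w = ∫ y, psi m (y + d) • b (v - ε • y) := by
    unfold moll
    rw [← integral_add_right_eq_self (fun y => psi m y • b (w - ε • y)) d]
    refine integral_congr_ae (Eventually.of_forall fun y => ?_)
    simp only [hd, smul_add, smul_inv_smul₀ hε.ne']
    congr 2
    abel
  have e2 : moll b ε v = ∫ y, psi m (y + 0) • b (v - ε • y) := by simp [moll]
  have e : moll b ε w - moll b ε v
      = ∫ y, (psi m (y + d) - psi m y) • (b (v - ε • y) - b v) := by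
    have h0 : (∫ y, psi m (y + d) - psi m y) = 0 := by
      rw [integral_sub (hint' d) (by simpa using hint' 0), integral_add_right_eq_self, sub_self]
    have h1 : (fun y => (psi m (y + d) - psi m y) • (b (v - ε • y) - b v))
        = fun y => (psi m (y + d) • b (v - ε • y) - psi m (y + 0) • b (v - ε • y))
          - (psi m (y + d) - psi m y) • b v := by
      funext y; simp only [add_zero, smul_sub, sub_smul]
    have hA : Integrable fun y => psi m (y + d) • b (v - ε • y) - psi m (y + 0) • b (v - ε • y) :=
      (hint d).sub (hint 0)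
    have hB : Integrable fun y => (psi m (y + d) - psi m y) • b v :=
      Integrable.smul_const (f := fun y => psi m (y + d) - psi m y)
        ((hint' d).sub (by simpa using hint' 0)) _
    rw [h1, integral_sub hA hB, integral_sub (hint d) (hint 0), integral_smul_const, h0, zero_smul,
      sub_zero, e1, e2]
  rw [e]
  refine le_trans (norm_integral_le_of_norm_le
    (g := (closedBall (0 : Vec m) 2).indicator fun _ => (K * ‖d‖) * (C * (ε * 2) ^ α))
    ?_ (Eventually.of_forall fun y => ?_)) ?_
  · exact (integrable_indicator_iff measurableSet_closedBall).2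
      (integrableOn_const measure_closedBall_lt_top.ne)
  · by_cases hy : y ∈ closedBall (0 : Vec m) 2
    · rw [indicator_of_mem hy, norm_smul]
      rw [mem_closedBall, dist_zero_right] at hy
      refine mul_le_mul ?_ ((hb _ _).trans (mul_le_mul_of_nonneg_left
        (Real.rpow_le_rpow (norm_nonneg _) ?_ hα) hC)) (norm_nonneg _) (by positivity)
      · simpa [dist_eq_norm] using hK.dist_le_mul (y + d) y
      · rw [sub_sub_cancel_left, norm_neg, norm_smul, Real.norm_of_nonneg hε.le]
        exact mul_le_mul_of_nonneg_left hy hε.le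
    · rw [indicator_of_notMem hy]
      rw [mem_closedBall, dist_zero_right, not_le] at hy
      have h1 : psi m y = 0 := psi_eq_zero y (by linarith)
      have h2 : psi m (y + d) = 0 := psi_eq_zero _ (by
        have := norm_sub_le (y + d) d
        rw [add_sub_cancel_right] at this
        linarith)
      simp [h1, h2]
  · rw [integral_indicator_const _ measurableSet_closedBall, smul_eq_mul, measureReal_def, ← hI,
      hd, norm_smul, Real.norm_of_nonneg (inv_nonneg.2 hε.le), Real.mul_rpow hε.le (by norm_num),
      Real.rpow_sub hε, Real.rpow_one]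
    apply le_of_eq
    field_simp

end

end P127
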