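import Mathlib

/-!
P127, helper file: the determinant of a family of rows as a continuous multilinear map,
the Piola identity along a linear homotopy, and the resulting bound for the change of
the weighted determinant integral.
-/

open MeasureTheory Set Filter Topology Function Metric

namespace P127

noncomputable section

abbrev Vec (m : ℕ) := Fin m → ℝ

variable {m : ℕ}

/-- The determinant as a continuous multilinear function of the rows. -/
def Dm (m : ℕ) : ContinuousMultilinearMap ℝ (fun _ : Fin m => Vec m) ℝ where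
  toMultilinearMap :=
    (Matrix.detRowAlternating : (Vec m) [⋀^Fin m]→ₗ[ℝ] ℝ).toMultilinearMap
  cont := (Continuous.matrix_det continuous_id' :
    Continuous fun M : Matrix (Fin m) (Fin m) ℝ => M.det)

theorem Dm_eq (c : Fin m → Vec m) : Dm m c = (Matrix.of c).det := rfl

theorem abs_Dm_le (c : Fin m → Vec m) : |Dm m c| ≤ (m.factorial : ℝ) * ∏ k, ‖c k‖ := by
  rw [Dm_eq, Matrix.det_apply']
  refine le_trans (Finset.abs_sum_le_sum_abs _ _) ?_
  calc ∑ σ : Equiv.Perm (Fin m), |(((Equiv.Perm.sign σ : ℤ)) : ℝ) * ∏ i, (Matrix.of c) (σ i) i|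
      ≤ ∑ _σ : Equiv.Perm (Fin m), ∏ k, ‖c k‖ := by
        refine Finset.sum_le_sum fun σ _ => ?_
        rw [abs_mul, Finset.abs_prod]
        have h1 : |(((Equiv.Perm.sign σ : ℤ)) : ℝ)| = 1 := by
          rcases Int.units_eq_one_or (Equiv.Perm.sign σ) with h | h <;> simp [h]
        rw [h1, one_mul, ← Equiv.prod_comp σ (fun k => ‖c k‖)]
        exact Finset.prod_le_prod (fun i _ => abs_nonneg _)
          (fun i _ => norm_le_pi_norm (c (σ i)) i)
    _ = (m.factorial : ℝ) * ∏ k, ‖c k‖ := by
        simp [Fintype.card_perm]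

/-- Cramer's rule in row form. -/
theorem sum_Dm_update_smul (c : Fin m → Vec m) (g : Vec m) :
    ∑ j, Dm m (update c j g) • c j = Dm m c • g := by
  have h := Matrix.mulVec_cramer (Matrix.of c).transpose g
  rw [Matrix.det_transpose] at h
  ext i
  have hi := congrFun h i
  simp only [Matrix.mulVec, dotProduct, Matrix.cramer_transpose_apply] at hi
  simp only [Finset.sum_apply, Pi.smul_apply, smul_eq_mul, Dm_eq] at hi ⊢
  rw [← hi]
  refine Finset.sum_congr rfl fun j _ => ?_
  rw [mul_comm]
  rfl

/-- The basis vector of index `j`. -/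
def bv (j : Fin m) : Vec m := Pi.single j 1

theorem norm_bv_le (j : Fin m) : ‖bv j‖ ≤ 1 := by
  refine (pi_norm_le_iff_of_nonneg zero_le_one).2 fun i => ?_
  by_cases h : i = j
  · subst h; simp [bv]
  · simp [bv, h]

/-- The rows of the derivative of `v ↦ F v + s • G v`. -/
def rows (F G : Vec m → Vec m) (s : ℝ) (v : Vec m) : Fin m → Vec m :=
  fun k => fderiv ℝ F v (bv k) + s • fderiv ℝ G v (bv k)

/-- The rows of the derivative of `F`. -/
def rows0 (F : Vec m → Vec m) (v : Vec m) : Fin m → Vec m :=
  fun k => fderiv ℝ F v (bv k)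

/-- The flux components. -/
def flux (F G : Vec m → Vec m) (h : Vec m → ℝ) (s : ℝ) (j : Fin m) (v : Vec m) : ℝ :=
  h (F v + s • G v) * Dm m (update (rows F G s v) j (G v))

/-- The density whose integral moves along the homotopy. -/
def dens (F G : Vec m → Vec m) (χ h : Vec m → ℝ) (s : ℝ) (v : Vec m) : ℝ :=
  χ v * (Dm m (rows F G s v) * h (F v + s • G v))

/-- The derivative of the density in the homotopy parameter. -/
def dens' (F G : Vec m → Vec m) (χ h : Vec m → ℝ) (s : ℝ) (v : Vec m) : ℝ :=
  χ v * ((∑ j, Dm m (update (rows F G s v) j (fderiv ℝ G v (bv j)))) * h (F v + s • G v)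
    + Dm m (rows F G s v) * fderiv ℝ h (F v + s • G v) (G v))

variable {F G : Vec m → Vec m} {χ h : Vec m → ℝ}

theorem contDiff_fderiv_bv (hF : ContDiff ℝ 2 F) (k : Fin m) :
    ContDiff ℝ 1 (fun v => fderiv ℝ F v (bv k)) :=
  (hF.fderiv_right (by norm_num)).clm_apply contDiff_const

theorem contDiff_update_rows (hF : ContDiff ℝ 2 F) (hG : ContDiff ℝ 2 G) (s : ℝ) (j k : Fin m) :
    ContDiff ℝ 1 (fun v => update (rows F G s v) j (G v) k) := by
  by_cases hk : k = j
  · subst hk
    simpa using hG.of_le (by norm_num)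
  · simp only [update_of_ne hk, rows]
    exact (contDiff_fderiv_bv hF k).add ((contDiff_fderiv_bv hG k).const_smul s)

theorem differentiable_flux (hF : ContDiff ℝ 2 F) (hG : ContDiff ℝ 2 G) (hh : ContDiff ℝ 1 h)
    (s : ℝ) (j : Fin m) : ContDiff ℝ 1 (flux F G h s j) := by
  unfold flux
  refine ContDiff.mul (hh.comp ((hF.of_le (by norm_num)).add
    ((hG.of_le (by norm_num)).const_smul s))) ?_
  exact ((Dm m).contDiff).comp (contDiff_pi.2 fun k => contDiff_update_rows hF hG s j k)

theorem fderiv_update_rows (hF : ContDiff ℝ 2 F) (hG : ContDiff ℝ 2 G) (s : ℝ)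
    (j k : Fin m) (hk : k ≠ j) (v w : Vec m) :
    fderiv ℝ (fun u => update (rows F G s u) j (G u) k) v w
      = fderiv ℝ (fderiv ℝ F) v w (bv k) + s • fderiv ℝ (fderiv ℝ G) v w (bv k) := by
  have hdF : DifferentiableAt ℝ (fderiv ℝ F) v :=
    ((hF.fderiv_right (by norm_num : (1 : WithTop ℕ∞) + 1 ≤ 2)).differentiable (by norm_num)).differentiableAt
  have hdG : DifferentiableAt ℝ (fderiv ℝ G) v :=
    ((hG.fderiv_right (by norm_num : (1 : WithTop ℕ∞) + 1 ≤ 2)).differentiable (by norm_num)).differentiableAt
  have h1 := hdF.hasFDerivAt.clm_apply (hasFDerivAt_const (bv k) v)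
  have h2 := hdG.hasFDerivAt.clm_apply (hasFDerivAt_const (bv k) v)
  have h3 : (fun u => update (rows F G s u) j (G u) k)
      = fun u => fderiv ℝ F u (bv k) + s • fderiv ℝ G u (bv k) := by
    funext u; simp [update_of_ne hk, rows]
  rw [h3, (h1.fun_add (h2.fun_const_smul s)).fderiv]
  simp

/-- The Piola identity along the homotopy. -/
theorem sum_fderiv_flux (hF : ContDiff ℝ 2 F) (hG : ContDiff ℝ 2 G) (hh : ContDiff ℝ 1 h)
    (s : ℝ) (v : Vec m) :
    ∑ j, fderiv ℝ (flux F G h s j) v (bv j)
      = (∑ j, Dm m (update (rows F G s v) j (fderiv ℝ G v (bv j)))) * h (F v + s • G v)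
        + Dm m (rows F G s v) * fderiv ℝ h (F v + s • G v) (G v) := by
  set P := rows F G s v with hP
  set p := F v + s • G v with hp
  set L := fderiv ℝ h p with hL
  set S : Fin m → Fin m → Vec m := fun j k =>
    fderiv ℝ (fderiv ℝ F) v (bv j) (bv k) + s • fderiv ℝ (fderiv ℝ G) v (bv j) (bv k) with hS
  have hsym : ∀ j k, S j k = S k j := by
    intro j k
    simp only [hS]
    rw [(hF.contDiffAt.isSymmSndFDerivAt (by simp)).eq (bv j) (bv k),
      (hG.contDiffAt.isSymmSndFDerivAt (by simp)).eq (bv j) (bv k)]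
  set X : Fin m → Fin m → ℝ := fun j k =>
    if k = j then 0 else Dm m (update (update P j (G v)) k (S j k)) with hX
  have hterm : ∀ j, fderiv ℝ (flux F G h s j) v (bv j)
      = L (Dm m (update P j (G v)) • P j)
        + (Dm m (update P j (fderiv ℝ G v (bv j))) + ∑ k, X j k) * h p := by
    intro j
    have hF1 : HasFDerivAt F (fderiv ℝ F v) v :=
      (hF.differentiable (by norm_num) v).hasFDerivAt
    have hG1 : HasFDerivAt G (fderiv ℝ G v) v :=
      (hG.differentiable (by norm_num) v).hasFDerivAt
    have hH : HasFDerivAt (fun u => F u + s • G u) (fderiv ℝ F v + s • fderiv ℝ G v) v :=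
      hF1.fun_add (hG1.fun_const_smul s)
    have hh1 : HasFDerivAt (fun u => h (F u + s • G u))
        (L.comp (fderiv ℝ F v + s • fderiv ℝ G v)) v :=
      ((hh.differentiable (by norm_num) _).hasFDerivAt).comp v hH
    set q : Vec m → Fin m → Vec m := fun u => update (rows F G s u) j (G u) with hq
    have hq1 : HasFDerivAt q (ContinuousLinearMap.pi fun k => fderiv ℝ (fun u => q u k) v) v :=
      hasFDerivAt_pi.2 fun k =>
        ((contDiff_update_rows hF hG s j k).differentiable (by norm_num) v).hasFDerivAt
    have hD : HasFDerivAt (fun u => Dm m (q u))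
        (((Dm m).linearDeriv (q v)).comp
          (ContinuousLinearMap.pi fun k => fderiv ℝ (fun u => q u k) v)) v :=
      ((Dm m).hasFDerivAt (q v)).comp v hq1
    have hprod : HasFDerivAt (flux F G h s j) _ v := hh1.mul hD
    rw [hprod.fderiv]
    simp only [_root_.add_apply, _root_.smul_apply, smul_eq_mul,
      ContinuousLinearMap.comp_apply, ContinuousMultilinearMap.linearDeriv_apply,
      ContinuousLinearMap.pi_apply, map_smul]
    have hPj : (fderiv ℝ F v (bv j) + s • fderiv ℝ G v (bv j)) = P j := rfl
    have hqv : q v = update P j (G v) := rfl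
    have hsum : ∑ k, Dm m (update (q v) k (fderiv ℝ (fun u => q u k) v (bv j)))
        = Dm m (update P j (fderiv ℝ G v (bv j))) + ∑ k, X j k := by
      rw [← Finset.add_sum_erase _ _ (Finset.mem_univ j)]
      congr 1
      · have : (fun u => q u j) = G := by funext u; simp [hq]
        rw [this, hqv, update_idem]
      · have hXj : ∑ k, X j k = ∑ k ∈ Finset.univ.erase j, X j k := by
          rw [← Finset.add_sum_erase _ _ (Finset.mem_univ j)]; simp [hX]
        rw [hXj]
        refine Finset.sum_congr rfl fun k hk => ?_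
        have hkj : k ≠ j := Finset.ne_of_mem_erase hk
        simp only [hq, fderiv_update_rows hF hG s j k hkj]
        simp only [hX, if_neg hkj]
        rfl
    rw [hsum, ← hP, hPj, ← hp]
    ring
  simp only [hterm]
  rw [Finset.sum_add_distrib, ← map_sum, sum_Dm_update_smul, map_smul, smul_eq_mul,
    ← Finset.sum_mul, Finset.sum_add_distrib]
  have hanti : ∀ j k, X k j = -X j k := by
    intro j k
    by_cases hjk : k = j
    · subst hjk; simp [hX]
    · simp only [hX, if_neg hjk, if_neg (Ne.symm hjk)]
      have hs := (Matrix.detRowAlternating : (Vec m) [⋀^Fin m]→ₗ[ℝ] ℝ).map_swap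
        (update (update P j (G v)) k (S j k)) (Ne.symm hjk)
      have e : (update (update P j (G v)) k (S j k)) ∘ (Equiv.swap j k)
          = update (update P k (G v)) j (S k j) := by
        rw [hsym k j]
        funext i
        by_cases h1 : i = j
        · subst h1; simp
        · by_cases h2 : i = k
          · subst h2; simp [h1, Ne.symm h1]
          · simp [h1, h2, Equiv.swap_apply_of_ne_of_ne]
      rw [e] at hs
      exact hs
  have hzero : ∑ j, ∑ k, X j k = 0 := by
    have h1 : ∑ j, ∑ k, X j k = ∑ j, ∑ k, -X j k := by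
      rw [Finset.sum_comm]
      exact Finset.sum_congr rfl fun j _ => Finset.sum_congr rfl fun k _ => hanti j k
    simp only [Finset.sum_neg_distrib] at h1
    linarith
  rw [hzero]
  ring

/-- Integration by parts for the derivative of the density. -/
theorem integral_dens' (hF : ContDiff ℝ 2 F) (hG : ContDiff ℝ 2 G) (hh : ContDiff ℝ 1 h)
    (hχ : ContDiff ℝ 1 χ) (hχc : HasCompactSupport χ) (s : ℝ) :
    ∫ v, dens' F G χ h s v = -∑ j, ∫ v, fderiv ℝ χ v (bv j) * flux F G h s j v := by
  have hfl := differentiable_flux hF hG hh s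
  have hint1 : ∀ j, Integrable (fun v => χ v * fderiv ℝ (flux F G h s j) v (bv j)) := fun j =>
    (hχ.continuous.mul (((hfl j).continuous_fderiv (by norm_num)).clm_apply continuous_const)
      ).integrable_of_hasCompactSupport hχc.mul_right
  have hint2 : ∀ j, Integrable (fun v => fderiv ℝ χ v (bv j) * flux F G h s j v) := fun j =>
    (((hχ.continuous_fderiv (by norm_num)).clm_apply continuous_const).mul
      (hfl j).continuous).integrable_of_hasCompactSupport
      ((hχc.fderiv_apply ℝ (bv j)).mul_right)
  have hint3 : ∀ j, Integrable (fun v => χ v * flux F G h s j v) := fun j =>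
    (hχ.continuous.mul (hfl j).continuous).integrable_of_hasCompactSupport hχc.mul_right
  have : dens' F G χ h s = fun v => ∑ j, χ v * fderiv ℝ (flux F G h s j) v (bv j) := by
    funext v
    rw [← Finset.mul_sum, sum_fderiv_flux hF hG hh s v]
    rfl
  rw [this, integral_finsetSum _ fun j _ => hint1 j, ← Finset.sum_neg_distrib]
  refine Finset.sum_congr rfl fun j _ => ?_
  exact integral_mul_fderiv_eq_neg_fderiv_mul_of_integrable (hint2 j) (hint1 j) (hint3 j)
    (fun x _ => hχ.differentiable (by norm_num) x)
    (fun x _ => (hfl j).differentiable (by norm_num) x)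

theorem continuous_rows (hF : ContDiff ℝ 2 F) (hG : ContDiff ℝ 2 G) :
    Continuous fun z : ℝ × Vec m => rows F G z.1 z.2 := by
  refine continuous_pi fun k => ?_
  simp only [rows]
  exact ((contDiff_fderiv_bv hF k).continuous.comp continuous_snd).add
    (continuous_fst.smul ((contDiff_fderiv_bv hG k).continuous.comp continuous_snd))

theorem continuous_dens' (hF : ContDiff ℝ 2 F) (hG : ContDiff ℝ 2 G) (hh : ContDiff ℝ 1 h)
    (hχ : ContDiff ℝ 1 χ) : Continuous fun z : ℝ × Vec m => dens' F G χ h z.1 z.2 := by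
  have hR := continuous_rows hF hG
  have hH : Continuous fun z : ℝ × Vec m => F z.2 + z.1 • G z.2 :=
    (hF.continuous.comp continuous_snd).add
      (continuous_fst.smul (hG.continuous.comp continuous_snd))
  unfold dens'
  refine (hχ.continuous.comp continuous_snd).mul (Continuous.add ?_ ?_)
  · refine Continuous.mul (continuous_finsetSum _ fun j _ => ?_) (hh.continuous.comp hH)
    exact (Dm m).cont.comp (hR.update j ((contDiff_fderiv_bv hG j).continuous.comp continuous_snd))
  · exact ((Dm m).cont.comp hR).mul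
      (((hh.continuous_fderiv (by norm_num)).comp hH).clm_apply
        (hG.continuous.comp continuous_snd))

theorem hasDerivAt_dens (hh : ContDiff ℝ 1 h) (s : ℝ) (v : Vec m) :
    HasDerivAt (fun t => dens F G χ h t v) (dens' F G χ h s v) s := by
  have hr : HasDerivAt (fun t => rows F G t v) (rows0 G v) s := by
    refine hasDerivAt_pi.2 fun k => ?_
    simpa [rows, rows0] using ((hasDerivAt_id s).smul_const (fderiv ℝ G v (bv k))).const_add
      (fderiv ℝ F v (bv k))
  have hD := ((Dm m).hasFDerivAt (rows F G s v)).comp_hasDerivAt s hr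
  have hH : HasDerivAt (fun t : ℝ => F v + t • G v) (G v) s := by
    simpa using ((hasDerivAt_id s).smul_const (G v)).const_add (F v)
  have hh' := ((hh.differentiable (by norm_num) (F v + s • G v)).hasFDerivAt).comp_hasDerivAt s hH
  have := (hD.mul hh').const_mul (χ v)
  simpa [dens, dens', rows0, ContinuousMultilinearMap.linearDeriv_apply, Function.comp_def]
    using this

theorem continuous_dens (hF : ContDiff ℝ 2 F) (hG : ContDiff ℝ 2 G) (hh : ContDiff ℝ 1 h)
    (hχ : ContDiff ℝ 1 χ) (s : ℝ) : Continuous (dens F G χ h s) := by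
  have hR := (continuous_rows hF hG).comp ((continuous_const (y := s)).prodMk continuous_id)
  unfold dens
  exact hχ.continuous.mul (((Dm m).cont.comp hR).mul
    (hh.continuous.comp (hF.continuous.add (hG.continuous.const_smul s))))

/-- Main estimate: the change of the weighted determinant integral under a homotopy. -/
theorem step_bound (hF : ContDiff ℝ 2 F) (hG : ContDiff ℝ 2 G) (hh : ContDiff ℝ 1 h)
    (hχ : ContDiff ℝ 1 χ) (hχc : HasCompactSupport χ) (hh1 : ∀ x, |h x| ≤ 1)
    {A B : ℝ} (hA : ∀ v k, ‖fderiv ℝ F v (bv k)‖ ≤ A) (hA' : ∀ v k, ‖fderiv ℝ G v (bv k)‖ ≤ A)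
    (hB : ∀ v, ‖G v‖ ≤ B) :
    |(∫ v, dens F G χ h 1 v) - ∫ v, dens F G χ h 0 v|
      ≤ (∑ j, ∫ v, |fderiv ℝ χ v (bv j)|) * ((m.factorial : ℝ) * (B * (2 * A) ^ (m - 1))) := by
  obtain ⟨M, hM⟩ := (isCompact_Icc.prod hχc).exists_bound_of_continuousOn
    (s := Icc (-1 : ℝ) 2 ×ˢ tsupport χ) (continuous_dens' hF hG hh hχ).continuousOn
  have hzero : ∀ t, ∀ v, v ∉ tsupport χ → dens' F G χ h t v = 0 := by
    intro t v hv; simp [dens', image_eq_zero_of_notMem_tsupport hv]
  have hderiv : ∀ s ∈ Icc (0 : ℝ) 1,
      HasDerivAt (fun t => ∫ v, dens F G χ h t v) (∫ v, dens' F G χ h s v) s := by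
    intro s hs
    refine (hasDerivAt_integral_of_dominated_loc_of_deriv_le (F := dens F G χ h)
      (F' := dens' F G χ h) (bound := (tsupport χ).indicator fun _ => M)
      (Ioo_mem_nhds (show (-1 : ℝ) < s by linarith [hs.1]) (show s < 2 by linarith [hs.2]))
      (Eventually.of_forall fun t => (continuous_dens hF hG hh hχ t).aestronglyMeasurable)
      ?_ ?_ ?_ ?_ ?_).2
    · exact (continuous_dens hF hG hh hχ s).integrable_of_hasCompactSupport hχc.mul_right
    · exact ((continuous_dens' hF hG hh hχ).comp
        ((continuous_const (y := s)).prodMk continuous_id)).aestronglyMeasurable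
    · refine Eventually.of_forall fun v t ht => ?_
      by_cases hv : v ∈ tsupport χ
      · rw [indicator_of_mem hv]
        exact hM (t, v) ⟨Ioo_subset_Icc_self ht, hv⟩
      · rw [indicator_of_notMem hv, hzero t v hv, norm_zero]
    · exact (integrable_indicator_iff (isClosed_tsupport _).measurableSet).2
        (integrableOn_const hχc.measure_lt_top.ne)
    · exact Eventually.of_forall fun v t _ => hasDerivAt_dens hh t v
  set K := (∑ j, ∫ v, |fderiv ℝ χ v (bv j)|) * ((m.factorial : ℝ) * (B * (2 * A) ^ (m - 1))) with hK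
  have hbound : ∀ s ∈ Icc (0 : ℝ) 1, |∫ v, dens' F G χ h s v| ≤ K := by
    intro s hs
    rw [integral_dens' hF hG hh hχ hχc s, abs_neg, hK, Finset.sum_mul]
    refine le_trans (Finset.abs_sum_le_sum_abs _ _) (Finset.sum_le_sum fun j _ => ?_)
    rw [← integral_mul_const, ← Real.norm_eq_abs]
    refine norm_integral_le_of_norm_le ?_ (Eventually.of_forall fun v => ?_)
    · exact ((((hχ.continuous_fderiv (by norm_num)).clm_apply
        continuous_const).abs).integrable_of_hasCompactSupport
          (hχc.fderiv_apply ℝ (bv j)).abs).mul_const _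
    · rw [Real.norm_eq_abs, abs_mul]
      refine mul_le_mul_of_nonneg_left ?_ (abs_nonneg _)
      unfold flux
      rw [abs_mul]
      have hA0 : 0 ≤ A := le_trans (norm_nonneg _) (hA v j)
      calc |h (F v + s • G v)| * |Dm m (update (rows F G s v) j (G v))|
          ≤ 1 * ((m.factorial : ℝ) * ∏ k, ‖update (rows F G s v) j (G v) k‖) :=
            mul_le_mul (hh1 _) (abs_Dm_le _) (abs_nonneg _) zero_le_one
        _ ≤ (m.factorial : ℝ) * (B * (2 * A) ^ (m - 1)) := by
            rw [one_mul, ← Finset.mul_prod_erase _ _ (Finset.mem_univ j), update_self]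
            refine mul_le_mul_of_nonneg_left (mul_le_mul (hB v) ?_
              (Finset.prod_nonneg fun _ _ => norm_nonneg _)
              ((norm_nonneg _).trans (hB v))) (Nat.cast_nonneg _)
            have hc : (Finset.univ.erase j).card = m - 1 := by simp
            rw [← hc]
            rw [← Finset.prod_const]
            refine Finset.prod_le_prod (fun _ _ => norm_nonneg _) ?_
            intro k hk
            rw [update_of_ne (Finset.ne_of_mem_erase hk)]
            refine le_trans (norm_add_le _ _) ?_
            rw [norm_smul, Real.norm_eq_abs, abs_of_nonneg hs.1]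
            nlinarith [hA v k, hA' v k, mul_le_mul hs.2 (hA' v k) (norm_nonneg _) zero_le_one]
  have := (convex_Icc (0 : ℝ) 1).norm_image_sub_le_of_norm_hasDerivWithin_le
    (f := fun t => ∫ v, dens F G χ h t v) (f' := fun s => ∫ v, dens' F G χ h s v) (C := K)
    (fun s hs => (hderiv s hs).hasDerivWithinAt)
    (fun s hs => by rw [Real.norm_eq_abs]; exact hbound s hs)
    (left_mem_Icc.2 zero_le_one) (right_mem_Icc.2 zero_le_one)
  simpa using this

end

end P127
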